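import Crest.Agent.X262.EndsZ.Red
import Crest.Agent.X262.Ends.Red
import Crest.Agent.X262.Ends.Iso

/-!
# Row 262, road B, ENDS (helper82): the contribution of a component of good reduction

`termStmt : Ends.TermStmt`.
-/

set_option autoImplicit false
set_option linter.unusedSectionVars false

noncomputable section

namespace Crest.Agent.X262.EndsZ

open Polynomial Crest.Agent.X277 Crest.Agent.X277.BD Crest.Agent.X277.BD.Cyc Crest.Agent.X262.Vb
  Crest.Agent.X262.Hb Crest.Agent.X262.Ends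
open Crest.Agent.X262.Bub96 (hv hv_C_mul hv_zero hv_add nrm_inj)
open Crest.Agent.X262.Bub96.Tr (dot)
open Crest.Agent.X262.Node22 (chr chr_ne scl pv_scl mem_Eb)

variable {J : Type} [Fintype J] [DecidableEq J] {io : J → Type} [∀ j, Fintype (io j)]
  [∀ j, DecidableEq (io j)] {A I : Type} [Fintype A] [Fintype I] {K L E : Type} [Field K]
  [Algebra ℂ K] [Field L] [Algebra ℂ L] [Field E] [Algebra ℂ E] {d : J → ℕ} {T : Tgt io A}
  {N c : ℕ}

theorem nm_eq_of_one {P P' : Type} [Fintype P] [Fintype P'] {Ψ : (P' → E) →ₗ[E] (P → E)}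
    {a : P → BD ℂ E} {a' : P' → BD ℂ E} {V : RZ ℂ E} (hi : ∀ u, Ψ u = 0 → u = 0)
    (h : ∀ u, nm a V (Ψ u) ≤ 1 ↔ nm a' V u ≤ 1) (u : P' → E) : nm a V (Ψ u) = nm a' V u := by
  refine le_antisymm (nm_le_of_one (U := ⊤) (fun x _ => (h x).2) trivial) ?_
  by_cases h0 : Ψ u = 0
  · simp [hi u h0]
  obtain ⟨e, he⟩ := V.exists_v (nm a V (Ψ u))
  have h1 := (h (e⁻¹ • u)).1 (by
    rw [map_smul, nm_smul, map_inv₀, he, inv_mul_cancel₀ (nm_pos h0).ne'])
  rwa [nm_smul, map_inv₀, he, inv_mul_le_iff₀ (nm_pos h0), mul_one] at h1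

variable (T) in
/-- the values of a section at the points -/
def psi (ξ : Dat io d I E) : (Cx T d → E) →ₗ[E] (A × I → E) where
  toFun u x := hv (dot (T.k x.1) d) (pol u x.1) (ξ.x x.2)
  map_add' u u' := _root_.funext fun x => by
    have e : pol (u + u') x.1 = pol u x.1 + pol u' x.1 := by simp [pol, Finset.sum_add_distrib]
    rw [e, hv_add, Pi.add_apply]
  map_smul' a u := _root_.funext fun x => by
    have e : pol (a • u) x.1 = C a * pol u x.1 := by simp [pol, Finset.mul_sum, C_mul_monomial]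
    rw [e, hv_C_mul]
    rfl

variable {ξ : Dat io d I E}

theorem psi_inj (hk : ∀ a, ξ.Nrm (T.k a)) (u : Cx T d → E) (h : psi T ξ u = 0) : u = 0 :=
  pol_eq_zero fun a => nrm_inj (hk a) (deg_pol u a) fun q => congrFun h (a, q)

theorem Eb_eq (S : Syz T) (he : ∀ b, ξ.Nrm (S.e b)) (hO : ξ.cfg.On T)
    (hR : ∀ q, S.Reg c (ξ.cfg.y q)) : ξ.cfg.Eb T = (KS S d ξ.f).map (psi T ξ) := by
  refine le_antisymm (fun σ hσ => ?_) ?_
  · obtain ⟨h1, h2⟩ := mem_Eb.1 hσ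
    choose τ h3 h4 using fun a => Dat.mem_cfg.1 (h1 a)
    have h5 : ∀ a, pol (T := T) (d := d) (fun y => (τ y.1).coeff y.2) a = τ a := fun a =>
      pol_ext (h3 a) fun _ => rfl
    refine ⟨fun y => (τ y.1).coeff y.2, fun b => nrm_inj (he b) (hv_syz S ξ.cp.1 _ b).1 fun q => ?_,
      _root_.funext fun x => ?_⟩
    · rw [(hv_syz S ξ.cp.1 _ b).2, ← S.rho_Nm (hO q) (h2 q) b]
      refine Finset.sum_congr rfl fun a _ => ?_
      rw [h5, congrFun (h4 a) q]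
      rfl
    · change hv _ _ _ = _
      rw [h5]
      exact congrFun (h4 x.1) x.2
  · rintro _ ⟨u, hu, rfl⟩
    refine mem_Eb.2 ⟨fun a => Dat.mem_cfg.2 ⟨pol u a, deg_pol u a, rfl⟩,
      fun q => (hR q).2 _ fun b => ?_⟩
    have h1 := (hv_syz S ξ.cp.1 u b).2 (ξ.x q)
    rw [hu b, hv_zero] at h1
    exact h1.symm

/-- the evaluation is isometric at the valuations which are trivial on the field of definition -/
theorem nm_psi (α : K →+* E) {g : (j : J) → io j → K[X]} (cp : Cp d g) (hf : ξ.f = mpf α g)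
    (h1 : ∀ j, ∃ i l, (g j i).coeff l = 1) (hk : ∀ a, ξ.Nrm (T.k a)) {U : RZ ℂ E}
    (hU : ∀ a, α a ∈ U.1) (u : Cx T d → E) :
    nm (ξ.cfg.ea T) U (psi T ξ u) = nm (fun _ => (0 : BD ℂ E)) U u := by
  let ρ : K →+* Rf U := (plV U).φ.comp (α.codRestrict U.1 hU)
  have h2 : GR (plV U) ξ.f (fun _ => 1) (mpf ρ g) :=
    ⟨fun j i l => by rw [hf, one_mul, mpf, coeff_map]; exact hU _, fun j i l => by
      rw [hf, one_mul, mpf, coeff_map, mpf, coeff_map]
      exact (plV U).r_eq (hU _), fun j => by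
      obtain ⟨i, l, h⟩ := h1 j
      exact ⟨i, l, by rw [mpf, coeff_map, h, map_one]⟩⟩
  have h3 : ∀ κ : J → ℕ, chr (fun _ => (1 : E)) κ = 1 := fun κ => by simp [chr]
  refine nm_eq_of_one (psi_inj hk) (fun u => ?_) u
  simp only [nm_le, one_mul, val_zero]
  refine ⟨fun h y => ?_, fun h x => ?_⟩
  · obtain ⟨τ, hτ⟩ := exists_pr_of h2 (cp.map ρ) (hk y.1) (deg_pol u y.1) fun q =>
      (le_iff_mem h2 ξ.cp (cp.map ρ) _ _).1 (h (y.1, q))
    have h4 := (hτ y.2).1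
    rw [h3, C_1, one_mul, coeff_pol] at h4
    exact RZ.le_one_iff.2 h4
  · obtain ⟨τ, hτ⟩ := Ends.exists_pr (p := plV U) (σ := pol u x.1) fun l => by
      by_cases hl : l < dot (T.k x.1) d + 1
      · exact (coeff_pol u x.1 ⟨l, hl⟩).symm ▸ RZ.le_one_iff.1 (h _)
      · rw [natDegree_le_iff_coeff_eq_zero.1 (deg_pol u x.1) l (by omega)]
        exact zero_mem _
    refine (le_iff_mem h2 ξ.cp (cp.map ρ) _ _).2 ?_
    rw [chr_gc, h3, one_mul]
    exact (hv_red hτ (deg_pol u x.1) _).1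

variable {p : Pl ℂ L ℂ E} {η : Dat io d I L} {s : J → L} {g : (j : J) → io j → E[X]} {τ : L}
  {u : Cx T d → E}

theorem deg_scf (η : Dat io d I L) (s : J → L) (j : J) (i : io j) :
    (scf s η.f j i).natDegree ≤ d j := (natDegree_C_mul_le _ _).trans (η.cp.1 j i)

theorem pr_pol (h1 : ∀ y, τ * eqc T d (scf s η.f) y ∈ p.V.1)
    (h2 : ∀ y, u y = p.r (τ * eqc T d (scf s η.f) y)) (a : A) :
    Ends.PR p (C τ * pf (scf s η.f) (T.F a)) (pol u a) := fun l => by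
  rw [coeff_C_mul]
  by_cases hl : l < dot (T.k a) d + 1
  · exact ⟨h1 ⟨a, ⟨l, hl⟩⟩, (h2 ⟨a, ⟨l, hl⟩⟩).symm.trans (coeff_pol u a ⟨l, hl⟩).symm⟩
  · rw [natDegree_le_iff_coeff_eq_zero.1 (deg_pol u a) l (by omega),
      natDegree_le_iff_coeff_eq_zero.1 (hv_pf (T.hom a) (deg_scf η s)).1 l (by omega), mul_zero]
    exact ⟨zero_mem _, p.r_zero⟩

theorem mem_KS (S : Syz T) (hp : Lnr p) (h : GR p η.f s g)
    (h1 : ∀ a, Ends.PR p (C τ * pf (scf s η.f) (T.F a)) (pol u a)) : u ∈ KS S d g := fun b => by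
  have h2 := Ends.PR.sum Finset.univ fun a _ =>
    (pr_pf hp (f := scf s η.f) (g := g) (pr_gr h) (S.ρ b a)).mul (h1 a)
  simp only [mul_left_comm _ (C τ), ← Finset.mul_sum, syz_pf, mul_zero] at h2
  exact h2.uniq pr_zero

theorem sv_red (h1 : ∀ a, Ends.PR p (C τ * pf (scf s η.f) (T.F a)) (pol u a)) (cp : Cp d g)
    (x : A × I) : (τ • (η.cfg.gau fun q => gc p s d (η.x q)).sv T) x ∈ p.V.1 ∧
      p.r ((τ • (η.cfg.gau fun q => gc p s d (η.x q)).sv T) x) = psi T (rdat η p cp) u x := by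
  have h2 := hv_pf (T.hom x.1) (deg_scf η s)
  have h3 := hv_red (h1 x.1) ((natDegree_C_mul_le _ _).trans h2.1) (η.x x.2)
  have h4 : pt d (scf s η.f) (η.x x.2) = scl s (η.cfg.y x.2) :=
    _root_.funext fun j => _root_.funext fun i => hv_C_mul _ _ _ _
  have h5 : (τ • (η.cfg.gau fun q => gc p s d (η.x q)).sv T) x = bx p (η.x x.2) ^ dot (T.k x.1) d *
      hv (dot (T.k x.1) d) (C τ * pf (scf s η.f) (T.F x.1)) (η.x x.2) := by
    rw [hv_C_mul, h2.2, h4, pv_scl (T.hom _), Cfg.sv_gau, Pi.smul_apply, chr_gc, Cfg.sv,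
      smul_eq_mul]
    ring
  rw [h5]
  exact h3

theorem pb_dv0 {B : Th} (hB : B.Ax) [Algebra.EssFiniteType ℂ L] [Algebra.EssFiniteType ℂ E]
    {p : LP L E} {z : Cfg io I L} (h3 : z.Pr p.V) {w : A × I → E} (hw : w ≠ 0)
    (h2 : ∀ x, (τ • z.sv T) x ∈ p.V.1 ∧ p.r ((τ • z.sv T) x) = w x) :
    B.pb p (B.c1 (z.dv T)) = B.c1 (-sz w ((z.red0 p.toPl).ea T)) := by
  obtain ⟨x, hx⟩ := Function.ne_iff.1 hw
  have h6 : p.V.v ((τ • z.sv T) x) = 1 := Pl.r_ne_zero_iff.1 ((h2 x).2.trans_ne hx)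
  have h7 : nm (z.ea T) p.V (τ • z.sv T) = 1 := by
    refine le_antisymm (nm_le.2 fun y => ?_) ?_
    · rw [h3.val_ea, mul_one]
      exact RZ.le_one_iff.2 (h2 y).1
    · have h8 := le_nm (z.ea T) p.V (τ • z.sv T) x
      rwa [h6, h3.val_ea, mul_one] at h8
  have h8 : τ • z.sv T ≠ 0 := fun h0 => by
    rw [h0, nm_zero] at h7
    exact zero_ne_one h7
  have h9 : (sz (τ • z.sv T) (z.ea T)).val p.V = 1 := by rw [val_sz h8, h7]
  have h10 : z.dv T = -sz (τ • z.sv T) (z.ea T) + pr ℂ τ := by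
    rw [sz_smul (smul_ne_zero_iff.1 h8).2 (smul_ne_zero_iff.1 h8).1, Cfg.dv]
    abel
  have h11 : (fun y => p.r ((τ • z.sv T) y)) = w := _root_.funext fun y => (h2 y).2
  rw [h10, map_add, hB.c1_pr, add_zero, hB.pb_c1_res p (by rw [val_neg, h9, inv_one]),
    Pl.res_neg h9, res_sz p.toPl (h3.val_ea T) h7, h11, Cfg.ea_red0 T h3]

theorem pb_dv {B : Th} (hB : B.Ax) [Algebra.EssFiniteType ℂ L] [Algebra.EssFiniteType ℂ E]
    {p : LP L E} (h : GR p.toPl η.f s g) (cp : Cp d g)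
    (h1 : ∀ a, Ends.PR p.toPl (C τ * pf (scf s η.f) (T.F a)) (pol u a))
    (hu : psi T (rdat η p.toPl cp) u ≠ 0) : B.pb p (B.c1 (η.cfg.dv T)) =
      B.c1 (-sz (psi T (rdat η p.toPl cp) u) ((rdat η p.toPl cp).cfg.ea T)) := by
  have h5 : (rdat η p.toPl cp).cfg.ea T =
      ((η.cfg.gau fun q => gc p.toPl s d (η.x q)).red0 p.toPl).ea T := by
    unfold Cfg.ea
    rw [red0_y h cp]
  rw [← Cfg.dv_gau T η.cfg_nz fun q => gc_ne (d := d) h (η.x q), h5]
  exact pb_dv0 hB (pr_cfg h cp) hu (sv_red h1 cp)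

theorem on_pt {g : (j : J) → io j → K[X]} (hg : ∀ j i, (g j i).natDegree ≤ d j)
    (h : ∀ a, pf g (T.F a) = 0) (t : Option K) : T.On (pt d g t) := fun a => by
  rw [← (hv_pf (T.hom a) hg).2, h, hv_zero]

/-- **the contribution of a component of good reduction** -/
theorem termStmt : TermStmt := by
  intro B hB J _ _ io _ _ A _ T c d S N hS hN I M L _ _ _ _ _ η m hη W hW K _ _ _ _ _ _ _ g s x cp
    hon h hx τ h1 u h2 hu
  have := Geo.essFT_Rf hW
  have h3 := pr_pol h1 h2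
  have h4 := KS_map S cp.1 (IsScalarTower.toAlgHom ℂ K (Rf W))
  refine ⟨h4 ▸ mem_KS S (lnr_plV W) h h3, fun Φ r hΦ hr hd => ?_⟩
  have cp' : Cp d (mpf (algebraMap K (Rf W)) g) := cp.map _
  have h5 := geqN_red h cp' hη
  have h6 := nrmUp_red (lnr_plV W) h cp' hη
  have h7 : ∀ a, (rdat η (plV W) cp').Nrm (T.k a) := fun a => h6 _ (hN.k_le a)
  have h8 : (rdat η (plV W) cp').cfg.On T := fun q =>
    on_pt cp'.1 (fun a => (pf_map (IsScalarTower.toAlgHom ℂ K (Rf W)) g _).trans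
      (by rw [hon, Polynomial.map_zero])) _
  have h9 := h5.on.1 h8
  have h10 : ∀ q, S.Reg c ((rdat η (plV W) cp').cfg.y q) := fun q => by
    obtain ⟨e, he, h10, -⟩ := h5
    rw [h10]
    exact S.reg_scl c (he q) ((Bub96.tl_red hη (plV W)).reg hS hN h9 q)
  have h11 := hΦ.nat K (Rf W) (LP.hom (IsScalarTower.toAlgHom ℂ K (Rf W))) (fun q => pt d g (x q))
    (fun q => prim_hom _ (nz_pt cp _)) fun q => on_pt cp.1 hon _
  have h12 : (fun q => redP (LP.hom (IsScalarTower.toAlgHom ℂ K (Rf W))).toPl (pt d g (x q))) =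
      fun q => (rdat η (plV W) cp').cfg.y (m q) := _root_.funext fun q => by
    rw [redP_hom, ← pt_map]
    exact congrArg (pt d _) (hx q).symm
  rw [trm, ← exc_congr (cpz_geqN hB hN.k_le h5 (η.cfg_nz.red _)),
    ← hΦ.geqN h5 (η.cfg_nz.red _) h9, ← h12, ← h11,
    pb_dv hB (p := LP.at W) h cp' h3 fun h0 => hu (psi_inj h7 u h0), exc,
    Eb_eq S (fun b => h6 _ (hN.e_le b)) h8 h10]
  refine Eq.trans ?_ (itg_iso hB (fun V u => nm_psi (algebraMap K (Rf W)) cp rfl (fun j => ?_) h7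
    (fun a => V.2 a) u) hr hd hu _)
  · rw [← h4]
    rfl
  · obtain ⟨i, l, h0⟩ := h.one j
    exact ⟨i, l, (algebraMap K (Rf W)).injective (by rwa [map_one, ← coeff_map])⟩

end Crest.Agent.X262.EndsZ
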