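import Crest.Agent.X262.Ends.Defs
import Crest.Agent.X262.Vb.Bas0
import Crest.Agent.X262.Hb.Bas

/-!
# Row 262, road B, ENDS-ZERO (helper82): too many base classes vanish on the trees

* `hmg`           : multihomogenisation;
* `trdeg_le_of_rel` : the transcendence degree drops under specialisation;
* `rel_base`      : the relations between the base coordinates of the line hold on the trees;
* `zeroStmt`      : `Ends.ZeroStmt`.
-/

set_option autoImplicit false
set_option linter.unusedSectionVars false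

noncomputable section

namespace Crest.Agent.X262.EndsZ

open Polynomial Crest.Agent.X277 Crest.Agent.X277.BD Crest.Agent.X262.Vb Crest.Agent.X262.Hb
  Crest.Agent.X262.Ends

variable {J : Type} [Fintype J] [DecidableEq J] {io : J → Type} [∀ j, Fintype (io j)]
  [∀ j, DecidableEq (io j)] {A : Type} [Fintype A] {K E : Type} [Field K] [Algebra ℂ K]
  [Field E] [Algebra ℂ E]

theorem mh_prod (i : ∀ j, io j) (κ : J → ℕ) :
    MH (∏ j, MvPolynomial.X (⟨j, i j⟩ : Vr io) ^ κ j) κ := by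
  have h := MvPolynomial.IsWeightedHomogeneous.prod (R := ℂ) Finset.univ
    (fun j => MvPolynomial.X (⟨j, i j⟩ : Vr io) ^ κ j) (fun j => κ j • (Pi.single j 1 : J → ℕ))
    (w := fun v => (Pi.single v.1 1 : J → ℕ))
    fun j _ => (MvPolynomial.isWeightedHomogeneous_X ℂ _ (⟨j, i j⟩ : Vr io)).pow _
  rwa [show ∑ j, κ j • (Pi.single j 1 : J → ℕ) = κ from
    _root_.funext fun j => by simp [Pi.single_apply]] at h

/-- multihomogenisation -/
theorem hmg (i : ∀ j, io j) {σ : Type} (s : σ → Vr io) (P : MvPolynomial σ ℂ) :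
    ∃ q κ, MH q κ ∧ ∀ (R : Type) [CommRing R] [Algebra ℂ R] (y : (j : J) → io j → R) (z : σ → R),
      (∀ t, y (s t).1 (s t).2 = y (s t).1 (i (s t).1) * z t) →
      MvPolynomial.aeval (fun v : Vr io => y v.1 v.2) q =
        (∏ j, y j (i j) ^ κ j) * MvPolynomial.aeval z P := by
  induction P using MvPolynomial.induction_on with
  | C c => exact ⟨MvPolynomial.C c, 0, MvPolynomial.isWeightedHomogeneous_C _ c, by simp⟩
  | add p p' hp hp' =>
    obtain ⟨q, κ, h1, h2⟩ := hp
    obtain ⟨q', κ', h3, h4⟩ := hp'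
    refine ⟨_, κ + κ', (h1.mul (mh_prod i κ')).add (add_comm κ κ' ▸ h3.mul (mh_prod i κ)),
      fun R _ _ y z h => ?_⟩
    simp only [map_add, map_mul, map_prod, map_pow, MvPolynomial.aeval_X, h2 R y z h, h4 R y z h,
      Pi.add_apply, pow_add, Finset.prod_mul_distrib]
    ring
  | mul_X p t hp =>
    obtain ⟨q, κ, h1, h2⟩ := hp
    refine ⟨_, _, h1.mul (MvPolynomial.isWeightedHomogeneous_X ℂ _ (s t)), fun R _ _ y z h => ?_⟩
    simp only [map_mul, MvPolynomial.aeval_X, h2 R y z h, h t, Pi.add_apply, pow_add,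
      Finset.prod_mul_distrib, Pi.single_apply, pow_ite, pow_one, pow_zero, Finset.prod_ite_eq',
      Finset.mem_univ, if_true]
    ring

open scoped IntermediateField.algebraAdjoinAdjoin in
/-- the transcendence degree drops under specialisation -/
theorem trdeg_le_of_rel {σ : Type} {z : σ → K} {w : σ → E}
    (h : ∀ P : MvPolynomial σ ℂ, MvPolynomial.aeval z P = 0 → MvPolynomial.aeval w P = 0) :
    Algebra.trdeg ℂ (IntermediateField.adjoin ℂ (Set.range w)) ≤ Algebra.trdeg ℂ K := by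
  have : FaithfulSMul ℂ (Algebra.adjoin ℂ (Set.range w)) :=
    (faithfulSMul_iff_algebraMap_injective _ _).2 (algebraMap ℂ _).injective
  rw [← trdeg_add_eq ℂ (Algebra.adjoin ℂ (Set.range w)), trdeg_eq_zero (R := Algebra.adjoin ℂ _),
    add_zero, Algebra.adjoin_range_eq_range_aeval]
  refine (trdeg_le_of_surjective _ (AlgHom.liftOfSurjective_surjective _
    (MvPolynomial.aeval z).rangeRestrict_surjective _ (fun P hP => ?_)
    (MvPolynomial.aeval w).rangeRestrict_surjective)).trans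
    (trdeg_le_of_injective (Subalgebra.val _) Subtype.val_injective)
  exact Subtype.ext (h P (congrArg Subtype.val hP))

variable {T : Tgt io A} {d ν : J → ℕ} {j₁ : J} {f : (j : J) → io j → K[X]} {y : Pnt io E}

theorem tree_nz {M : Type} {z : M → Pnt io E} (h : TreePts T d z) (q : M) : NZ (z q) := fun j => by
  obtain ⟨L, _, _, _, α, t, x, c, h1, -, -, h4, h5⟩ := h
  obtain ⟨i, hi⟩ := nz_ev t h1 (x q) j
  exact ⟨i, fun h0 => mul_ne_zero (h4 q j) hi (by rw [← h5, h0, map_zero])⟩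

/-- a coordinate which does not vanish at a point of a tree does not vanish on the line -/
theorem ne_base (hL : Line T d ν j₁ f) (hy : TreePts T d fun _ : Unit => y) {j : J} {i : io j}
    (hi : y j i ≠ 0) : f j i ≠ 0 := fun h => hi (by
  simpa [pv] using hL.sw (MvPolynomial.X ⟨j, i⟩) _ (MvPolynomial.isWeightedHomogeneous_X ℂ _ _)
    (by simpa [pf] using h) E y hy)

/-- the relations between the base coordinates hold on the trees -/
theorem rel_base (hL : Line T d ν j₁ f) (hy : TreePts T d fun _ : Unit => y) {i : ∀ j, io j}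
    (hi : ∀ j, y j (i j) ≠ 0) (P : MvPolynomial {v : Vr io // ν v.1 ≠ 0} ℂ)
    (h : MvPolynomial.aeval (fun t : {v : Vr io // ν v.1 ≠ 0} =>
      (f t.1.1 t.1.2).coeff 0 / (f t.1.1 (i t.1.1)).coeff 0) P = 0) :
    MvPolynomial.aeval (fun t : {v : Vr io // ν v.1 ≠ 0} =>
      y t.1.1 t.1.2 / y t.1.1 (i t.1.1)) P = 0 := by
  obtain ⟨q, κ, h1, h2⟩ := hmg i Subtype.val P
  have h3 : ∀ j s, ν j ≠ 0 → f j s = C ((f j s).coeff 0) := fun j s hj =>
    eq_C_of_natDegree_le_zero (hL.zero j hj ▸ hL.cp.1 j s)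
  have h4 := h2 K[X] f
    (fun t => CAlgHom (R := ℂ) ((f t.1.1 t.1.2).coeff 0 / (f t.1.1 (i t.1.1)).coeff 0)) fun t => by
      have h4 : (f t.1.1 (i t.1.1)).coeff 0 ≠ 0 := fun h => ne_base hL hy (hi _) (by
        rw [h3 _ _ t.2, h, map_zero])
      conv_lhs => rw [h3 _ _ t.2, ← mul_div_cancel₀ ((f t.1.1 t.1.2).coeff 0) h4, C_mul,
        ← h3 _ _ t.2]
      rfl
  rw [← MvPolynomial.comp_aeval_apply, h, map_zero, mul_zero] at h4
  have h5 := (h2 E y _ fun t => (mul_div_cancel₀ _ (hi _)).symm).symm.trans (hL.sw q κ h1 h4 E y hy)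
  exact (mul_eq_zero.1 h5).resolve_left
    (Finset.prod_ne_zero_iff.2 fun j _ => pow_ne_zero _ (hi j))

/-- **ZERO** -/
theorem zeroStmt : ZeroStmt := by
  intro B hB J _ _ io _ _ A _ T d ν j₁ K _ _ _ f hL ν' h1 h2 E _ _ y hy
  choose i hi using tree_nz hy ()
  let w : {v : Vr io // ν v.1 ≠ 0} → E := fun t => y t.1.1 t.1.2 / y t.1.1 (i t.1.1)
  let F := IntermediateField.adjoin ℂ (Set.range w)
  have : Algebra.EssFiniteType ℂ F := essFT_adjoin' (Set.finite_range w)
  have h3 : dim ℂ F ≤ ∑ j, ν j := by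
    have h3 : Algebra.trdeg ℂ F ≤ _ := trdeg_le_of_rel (rel_base hL hy hi)
    rwa [trdeg_eq_dim, trdeg_eq_dim, Nat.cast_le, hL.dm] at h3
  let a : J → BD ℂ F := fun j => if h : ν j ≠ 0 then mxf ℂ fun s : io j =>
    (⟨w ⟨⟨j, s⟩, h⟩, IntermediateField.subset_adjoin _ _ ⟨_, rfl⟩⟩ : F) else 0
  have h4 : ∀ j, hc B j E y ^ ν' j = B.pb (LP.hom F.val) (B.c1 (a j) ^ ν' j) := fun j => by
    by_cases h : ν' j = 0
    · rw [h, pow_zero, pow_zero, map_one]
    · have h4 := ln_scl (tree_nz hy ()) (c := fun j => (y j (i j))⁻¹) (fun j => inv_ne_zero (hi j)) j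
      rw [map_pow, hB.pb_c1_hom, show a j = _ from dif_pos (h1 j h), pb_mxf, hc,
        ← add_zero (B.c1 (ln y j)), ← hB.c1_pr (y j (i j))⁻¹, ← map_add, ← h4]
      exact congrArg (fun u => B.c1 (mxf ℂ u) ^ ν' j)
        (_root_.funext fun s => (div_eq_inv_mul (y j s) (y j (i j))).symm)
  have h5 : ∏ j, B.c1 (a j) ^ ν' j ∈ B.ty F (∑ j, ν' j) (∑ j, ν' j) := by
    refine Finset.induction_on (motive := fun s : Finset J =>
      ∏ j ∈ s, B.c1 (a j) ^ ν' j ∈ B.ty F (∑ j ∈ s, ν' j) (∑ j ∈ s, ν' j)) Finset.univ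
      (by simpa using hB.ty_one) fun j s hj ih => ?_
    rw [Finset.prod_insert hj, Finset.sum_insert hj]
    exact hB.ty_mul (by simpa using hB.ty_pow (hB.ty_c1 (a j)) (ν' j)) ih
  simp only [h4]
  rw [← map_prod, hB.ty_zero h5 (.inl (h3.trans_lt h2)), map_zero]

end Crest.Agent.X262.EndsZ
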