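import Crest.Agent.X262.Ends.Pl
import Crest.Agent.X262.EndsZ.Main

/-!
# Row 262, road B, ENDS (helper82): vanishing by dimension

* `dim_le_add` : the dimension of a subfield of `β(K)(x)`;
* `vanStmt`    : `Ends.VanStmt`;
* `sq_of`      : `Ends.SqStmt` from `Ends.ParStmt`.
-/

set_option autoImplicit false
set_option linter.unusedSectionVars false

noncomputable section

namespace Crest.Agent.X262.EndsZ

open Polynomial Crest.Agent.X277 Crest.Agent.X277.BD Crest.Agent.X262.Vb Crest.Agent.X262.Hb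
  Crest.Agent.X262.Ends
open Crest.Agent.X262.Bub96 (hv)

variable {J : Type} [Fintype J] [DecidableEq J] {io : J → Type} [∀ j, Fintype (io j)]
  [∀ j, DecidableEq (io j)] {A : Type} [Fintype A] {K E : Type} [Field K] [Algebra ℂ K]
  [Field E] [Algebra ℂ E]

open scoped IntermediateField.algebraAdjoinAdjoin in
theorem trdeg_adjoin_le [Algebra K E] {ι : Type} [Fintype ι] (x : ι → E) :
    Algebra.trdeg K (IntermediateField.adjoin K (Set.range x)) ≤ Fintype.card ι := by
  have : FaithfulSMul K (Algebra.adjoin K (Set.range x)) :=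
    (faithfulSMul_iff_algebraMap_injective _ _).2 (algebraMap K _).injective
  rw [← trdeg_add_eq K (Algebra.adjoin K (Set.range x)), trdeg_eq_zero (R := Algebra.adjoin K _),
    add_zero, Algebra.adjoin_range_eq_range_aeval]
  simpa using trdeg_le_of_surjective _ (MvPolynomial.aeval (R := K) x).rangeRestrict_surjective

/-- the dimension of a subfield of `β(K)(x)` -/
theorem dim_le_add [Algebra.EssFiniteType ℂ K] (β : K →ₐ[ℂ] E) {ι : Type} [Fintype ι] (x : ι → E)
    (F : IntermediateField ℂ E) [Algebra.EssFiniteType ℂ F]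
    (h : ∀ G : IntermediateField ℂ E, (∀ a, β a ∈ G) → (∀ i, x i ∈ G) → F ≤ G) :
    dim ℂ F ≤ dim ℂ K + Fintype.card ι := by
  let _ := (β : K →+* E).toAlgebra
  have : IsScalarTower ℂ K E := .of_algebraMap_eq fun c => (β.commutes c).symm
  have h1 := h ((IntermediateField.adjoin K (Set.range x)).restrictScalars ℂ)
    (fun a => (IntermediateField.adjoin K (Set.range x)).algebraMap_mem a)
    fun i => IntermediateField.subset_adjoin K _ ⟨i, rfl⟩
  have h2 : Algebra.trdeg ℂ F ≤ Algebra.trdeg ℂ (IntermediateField.adjoin K (Set.range x)) :=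
    trdeg_le_of_injective (IntermediateField.inclusion h1) (IntermediateField.inclusion h1).injective
  rw [← trdeg_add_eq ℂ K (A := IntermediateField.adjoin K (Set.range x)), trdeg_eq_dim (F := K),
    trdeg_eq_dim (F := F)] at h2
  exact_mod_cast h2.trans (add_le_add le_rfl (trdeg_adjoin_le x))

instance eft_bas (ν : J → ℕ) (y : Pnt io E) : Algebra.EssFiniteType ℂ (bas ν y) :=
  essFT_adjoin' ((Set.finite_range fun p : Σ j, io j × io j => y p.1 p.2.1 / y p.1 p.2.2).subset
    fun _ ⟨j, i, i', _, h⟩ => ⟨⟨j, i, i'⟩, h.symm⟩)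

theorem div_mem_bas {ν : J → ℕ} (y : Pnt io E) {j : J} (h : ν j ≠ 0) (i i' : io j) :
    y j i / y j i' ∈ bas ν y := IntermediateField.subset_adjoin _ _ ⟨j, i, i', h, rfl⟩

/-- **VAN** -/
theorem vanStmt : VanStmt := by
  intro B hB J _ _ io _ _ ν E _ _ y hy h2
  choose i hi using id hy
  let a : J → BD ℂ (bas ν y) := fun j => if h : ν j ≠ 0 then mxf ℂ fun s : io j =>
    (⟨_, div_mem_bas y h s (i j)⟩ : bas ν y) else 0
  have h4 : ∀ j, hc B j E y ^ ν j = B.pb (LP.hom (bas ν y).val) (B.c1 (a j) ^ ν j) := fun j => by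
    by_cases h : ν j = 0
    · rw [h, pow_zero, pow_zero, map_one]
    · have h4 := ln_scl hy (c := fun j => (y j (i j))⁻¹) (fun j => inv_ne_zero (hi j)) j
      rw [map_pow, hB.pb_c1_hom, show a j = _ from dif_pos h, pb_mxf, hc,
        ← add_zero (B.c1 (ln y j)), ← hB.c1_pr (y j (i j))⁻¹, ← map_add, ← h4]
      exact congrArg (fun u => B.c1 (mxf ℂ u) ^ ν j)
        (_root_.funext fun s => (div_eq_inv_mul (y j s) (y j (i j))).symm)
  have h5 : ∏ j, B.c1 (a j) ^ ν j ∈ B.ty (bas ν y) (∑ j, ν j) (∑ j, ν j) := by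
    refine Finset.induction_on (motive := fun s : Finset J =>
      ∏ j ∈ s, B.c1 (a j) ^ ν j ∈ B.ty (bas ν y) (∑ j ∈ s, ν j) (∑ j ∈ s, ν j)) Finset.univ
      (by simpa using hB.ty_one) fun j s hj ih => ?_
    rw [Finset.prod_insert hj, Finset.sum_insert hj]
    exact hB.ty_mul (by simpa using hB.ty_pow (hB.ty_c1 (a j)) (ν j)) ih
  simp only [h4]
  rw [← map_prod, hB.ty_zero h5 (.inl h2), map_zero]

theorem hv_mem (β : K →ₐ[ℂ] E) {G : IntermediateField ℂ E} (h : ∀ a, β a ∈ G) {t : Option E}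
    (ht : t.getD 0 ∈ G) (n : ℕ) (f : K[X]) : hv n (f.map (β : K →+* E)) t ∈ G := by
  rcases t with _ | t
  · simpa [hv] using h _
  · rw [hv, eval_map, eval₂_eq_sum_range]
    exact sum_mem fun l _ => mul_mem (h _) (pow_mem ht _)

/-- **SQ** -/
theorem sq_of (hP : ParStmt) : SqStmt := by
  intro B hB J _ _ io _ _ A _ T d ν j₁ K _ _ _ f hL E _ _ y hy
  rcases lt_or_ge (dim ℂ (bas ν y)) (∑ j, ν j) with h | h
  · rw [vanStmt B hB ν E y hy.1 h, mul_zero]
  obtain ⟨β, t, c, h1, h2⟩ := (hP T d ν j₁ f hL E y hy).2 h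
  have h3 := dim_le_add β (fun _ : Unit => t.getD 0) (bas (Pi.single j₁ 2 + ν) y) fun G h3 h4 =>
    IntermediateField.adjoin_le_iff.2 (by
      rintro _ ⟨j, i, i', -, rfl⟩
      rw [h2, h2, mul_div_mul_left _ _ (h1 j)]
      exact div_mem (hv_mem β h3 (h4 ()) _ _) (hv_mem β h3 (h4 ()) _ _))
  have h4 := vanStmt B hB (Pi.single j₁ 2 + ν) E y hy.1 (h3.trans_lt (by
    simp [hL.dm, Finset.sum_add_distrib]
    omega))
  simp only [Pi.add_apply, pow_add, Finset.prod_mul_distrib] at h4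
  simpa [Pi.single_apply, pow_ite] using h4

end Crest.Agent.X262.EndsZ
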