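import Crest.Agent.X262.EndsZ.Term
import Crest.Agent.X262.EndsZ.Van
import Crest.Agent.X262.Num64.Main
import Crest.Agent.X262.Rb93.Main
import Crest.Agent.X262.NumPos.Main
import Crest.Agent.X262.Good3.Main
import Crest.Agent.X262.Ex19.Main
import Crest.Agent.X262.Mob85.Main
import Crest.Agent.X262.NumPar.Sq

/-!
# Row 262, road B, ENDS (helper82): the number of the swept family is positive

`numStmt : Ends.NumStmt`.
-/

set_option autoImplicit false

namespace Crest.Agent.X262.EndsZ

theorem mobStmt : Ends.MobStmt := Mob85.mob_of NumPar.parStmt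

/-- **the number of the swept family is positive** -/
theorem numStmt : Ends.NumStmt :=
  Num64.numStmt_of Rb93.rbStmt NumPos.posStmt (Good3.good_of vanStmt NumPar.sqStmt mobStmt)
    termStmt (Ex19.ex_of mobStmt)

end Crest.Agent.X262.EndsZ
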