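import Crest.Agent.X262.Ends.Pl
import Crest.Agent.X262.Vb.Res
import Crest.Agent.X262.Gen42.Two

/-!
# Row 262, road B, ENDS (helper82): good reduction of a datum

* `hv_red`, `prim_gc`, `redP_gc`, `le_iff` : reduction of points and of values of forms;
* `rdat`      : the reduced datum;
* `geqN_red`  : the reduction of the configuration is the configuration of the reduced datum;
* `nrmUp_red` : the reduced datum is norming.
-/

set_option autoImplicit false
set_option linter.unusedSectionVars false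

noncomputable section

namespace Crest.Agent.X262.EndsZ

open Polynomial Crest.Agent.X277 Crest.Agent.X277.BD Crest.Agent.X277.BD.Cyc Crest.Agent.X262.Vb
  Crest.Agent.X262.Hb Crest.Agent.X262.Ends
open Crest.Agent.X262.Bub96 (hv hv_C_mul hv_none hv_some)
open Crest.Agent.X262.Bub96.Tr (dot)
open Crest.Agent.X262.Gen42 (PR exists_pr top_est r_congr)
open Crest.Agent.X262.Node22 (chr chr_ne scl)

variable {J : Type} [Fintype J] [DecidableEq J] {io : J → Type} [∀ j, Fintype (io j)]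
  [∀ j, DecidableEq (io j)] {A I : Type} [Fintype A] [Fintype I] {K L E : Type} [Field K]
  [Algebra ℂ K] [Field L] [Algebra ℂ L] [Field E] [Algebra ℂ E] {p : Pl ℂ L ℂ E} {d κ : J → ℕ}
  {f : (j : J) → io j → L[X]} {s : J → L} {g : (j : J) → io j → E[X]} {σ : L[X]} {τ : E[X]}
  {n N : ℕ}

open Classical in
/-- the scalar which normalises a point of the line -/
def bx (p : Pl ℂ L ℂ E) : Option L → L
  | none => 1
  | some t => if t ∈ p.V.1 then 1 else t⁻¹

theorem bx_ne (x : Option L) : bx p x ≠ 0 := by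
  rcases x with _ | t
  · exact one_ne_zero
  · rw [bx]
    split_ifs with h
    exacts [one_ne_zero, inv_ne_zero fun h0 => h (h0 ▸ zero_mem _)]

theorem hv_red (h : PR p σ τ) (hd : σ.natDegree ≤ n) (x : Option L) :
    bx p x ^ n * hv n σ x ∈ p.V.1 ∧ p.r (bx p x ^ n * hv n σ x) = hv n τ (rx p x) := by
  rcases x with _ | t
  · simpa [bx, rx] using h n
  · by_cases ht : t ∈ p.V.1
    · simpa [bx, rx, ht] using h.eval ht
    · have h1 := r_congr (h n).1 (top_est h.le hd (not_le.1 fun h2 => ht (RZ.le_one_iff.1 h2)))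
      simpa [bx, rx, ht, (h n).2] using h1

/-- the primitive gauge -/
def gc (p : Pl ℂ L ℂ E) (s : J → L) (d : J → ℕ) (x : Option L) : J → L :=
  fun j => s j * bx p x ^ d j

theorem chr_gc (x : Option L) : chr (gc p s d x) κ = chr s κ * bx p x ^ dot κ d := by
  simp only [chr, gc, mul_pow, Finset.prod_mul_distrib, ← pow_mul, Finset.prod_pow_eq_pow_sum, dot,
    mul_comm (d _)]

theorem s_ne (h : GR p f s g) (j : J) : s j ≠ 0 := fun h0 => by
  obtain ⟨i, l, h1⟩ := h.one j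
  rw [← h.red, h0, zero_mul, Pl.r_zero] at h1
  exact zero_ne_one h1

theorem gc_ne (h : GR p f s g) (x : Option L) (j : J) : gc p s d x j ≠ 0 :=
  mul_ne_zero (s_ne h j) (pow_ne_zero _ (bx_ne x))

theorem pr_gr (h : GR p f s g) (j : J) (i : io j) : PR p (C (s j) * f j i) (g j i) := fun l => by
  rw [coeff_C_mul]
  exact ⟨h.mem j i l, h.red j i l⟩

theorem red_gc (h : GR p f s g) (hd : ∀ j i, (f j i).natDegree ≤ d j) (x : Option L) (j : J)
    (i : io j) : scl (gc p s d x) (pt d f x) j i ∈ p.V.1 ∧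
      p.r (scl (gc p s d x) (pt d f x) j i) = pt d g (rx p x) j i := by
  have h1 := hv_red (pr_gr h j i) ((natDegree_C_mul_le _ _).trans (hd j i)) x
  rwa [hv_C_mul, mul_left_comm, ← mul_assoc] at h1

theorem redP_gc (h : GR p f s g) (hd : ∀ j i, (f j i).natDegree ≤ d j) (x : Option L) :
    redP p (scl (gc p s d x) (pt d f x)) = pt d g (rx p x) :=
  _root_.funext fun j => _root_.funext fun i => (red_gc h hd x j i).2

theorem prim_gc (h : GR p f s g) (hd : ∀ j i, (f j i).natDegree ≤ d j) (cp : Cp d g)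
    (x : Option L) : Prim p.V (scl (gc p s d x) (pt d f x)) := fun j =>
  ⟨fun i => (red_gc h hd x j i).1, ((Bub96.cop_of_cp cp).2 j (rx p x)).imp fun i hi =>
    Pl.r_ne_zero_iff.1 ((red_gc h hd x j i).2.trans_ne hi)⟩

theorem v_le_res {a : BD ℂ L} (ha : a.val p.V = 1) {x : L} (hx : x ∈ p.V.1) (Z : RZ ℂ E) :
    (p.cm Z).v x ≤ a.val (p.cm Z) ↔ Z.v (p.r x) ≤ (p.res a).val Z := by
  rw [Pl.val_res_gen ha, ← Pl.v_le_iff hx (Pl.unit_of_gen ha (v_gen _ _)), v_gen]

theorem le_scl {y : Pnt io L} (hy : NZ y) {c : J → L} (hc : ∀ j, c j ≠ 0) (W : RZ ℂ L) (u : L) :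
    W.v u ≤ (lw κ y).val W ↔ W.v (chr c κ * u) ≤ (lw κ (scl c y)).val W := by
  rw [lw_scl hy hc, val_add, val_pr (chr_ne hc κ), map_mul, mul_comm ((lw κ y).val W),
    mul_le_mul_iff_right₀ (RZ.pos (chr_ne hc κ))]

theorem nz_pt (hf : Cp d f) (x : Option L) : NZ (pt d f x) := fun j => (Bub96.cop_of_cp hf).2 j x

theorem le_iff_mem (h : GR p f s g) (hf : Cp d f) (cp : Cp d g) (x : Option L) (u : L) :
    p.V.v u ≤ (lw κ (pt d f x)).val p.V ↔ chr (gc p s d x) κ * u ∈ p.V.1 := by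
  rw [le_scl (nz_pt hf x) (gc_ne h x), (prim_gc h hf.1 cp x).val_lw,
    RZ.le_one_iff]

theorem le_iff (h : GR p f s g) (hf : Cp d f) (cp : Cp d g) (hσ : PR p (C (chr s κ) * σ) τ)
    (hd : σ.natDegree ≤ dot κ d) (x : Option L) (Z : RZ ℂ E) :
    (p.cm Z).v (hv (dot κ d) σ x) ≤ (lw κ (pt d f x)).val (p.cm Z) ↔
      Z.v (hv (dot κ d) τ (rx p x)) ≤ (lw κ (pt d g (rx p x))).val Z := by
  have h1 := hv_red hσ ((natDegree_C_mul_le _ _).trans hd) x
  rw [hv_C_mul, mul_left_comm, ← mul_assoc, ← chr_gc] at h1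
  have h2 := prim_gc h hf.1 cp x
  rw [le_scl (nz_pt hf x) (gc_ne h x), v_le_res (h2.val_lw κ) h1.1, h1.2,
    ← lw_red h2, redP_gc h hf.1]

/-- the reduced datum -/
def rdat (η : Dat io d I L) (p : Pl ℂ L ℂ E) (cp : Cp d g) : Dat io d I E :=
  ⟨g, fun q => rx p (η.x q), cp⟩

variable {η : Dat io d I L}

/-- a form whose values at the norming points are integral is integral -/
theorem exists_pr_of (h : GR p η.f s g) (cp : Cp d g) (hκ : η.Nrm κ) (hd : σ.natDegree ≤ dot κ d)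
    (hi : ∀ q, chr (gc p s d (η.x q)) κ * hv (dot κ d) σ (η.x q) ∈ p.V.1) :
    ∃ τ, PR p (C (chr s κ) * σ) τ := by
  have h1 := hκ L (AlgHom.id ℂ L) p.V σ hd
  rw [Dat.map_id] at h1
  refine exists_pr (Drop30.le_of_eval (Gen42.Rd.triv p.V) fun u hu => ?_)
  have h2 := (le_iff_mem h η.cp cp (some u) _).1
    (h1 (fun q => (le_iff_mem h η.cp cp _ _).2 (hi q)) (some u))
  rw [chr_gc, bx, if_pos (RZ.le_one_iff.1 hu.le), one_pow, mul_one] at h2
  rw [eval_mul, eval_C]
  exact RZ.le_one_iff.2 h2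

theorem pr_cfg (h : GR p η.f s g) (cp : Cp d g) : (η.cfg.gau fun q => gc p s d (η.x q)).Pr p.V :=
  fun q => prim_gc h η.cp.1 cp (η.x q)

theorem red0_y (h : GR p η.f s g) (cp : Cp d g) :
    (rdat η p cp).cfg.y = ((η.cfg.gau fun q => gc p s d (η.x q)).red0 p).y :=
  _root_.funext fun q => (redP_gc h η.cp.1 (η.x q)).symm

theorem red0_V (h : GR p η.f s g) (cp : Cp d g) (hκ : η.Nrm κ) :
    (rdat η p cp).cfg.V κ = ((η.cfg.gau fun q => gc p s d (η.x q)).red0 p).V κ := by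
  classical
  have e : ∀ (σ : L[X]) q, chr (gc p s d (η.x q)) κ * hv (dot κ d) σ (η.x q) =
      bx p (η.x q) ^ dot κ d * hv (dot κ d) (C (chr s κ) * σ) (η.x q) := fun σ q => by
    rw [chr_gc, hv_C_mul]
    ring
  refine le_antisymm ?_ (redS_le ?_)
  · change Submodule.map _ _ ≤ _
    rw [degreeLE_eq_span_X_pow]
    refine Submodule.map_le_iff_le_comap.2 (Submodule.span_le.2 ?_)
    rintro _ hl'
    obtain ⟨l, hl, rfl⟩ := Finset.mem_image.1 hl'
    have h1 : (X ^ l : L[X]).natDegree ≤ dot κ d := by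
      rw [natDegree_X_pow]
      exact Nat.lt_succ_iff.1 (Finset.mem_range.1 hl)
    have h2 : PR p (X ^ l) (X ^ l) := fun m => by
      rw [coeff_X_pow, coeff_X_pow]
      split_ifs
      exacts [⟨one_mem _, p.r_one⟩, ⟨zero_mem _, p.r_zero⟩]
    have h3 := fun q => hv_red h2 h1 (η.x q)
    have h4 : C (chr s κ) * (C (chr s κ)⁻¹ * X ^ l) = X ^ l := by
      rw [← mul_assoc, ← C_mul, mul_inv_cancel₀ (chr_ne (s_ne h) κ), C_1, one_mul]
    have h5 := mem_redS p (U := (η.cfg.gau fun q => gc p s d (η.x q)).V κ)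
      (scl_mem (Dat.mem_cfg.2 ⟨_, (natDegree_C_mul_le (chr s κ)⁻¹ _).trans h1, rfl⟩)) fun q => by
        change chr _ κ * _ ∈ _
        rw [e, h4]
        exact (h3 q).1
    change (fun q => hv (dot κ d) (X ^ l) (rx p (η.x q))) ∈ redS p _
    convert h5 using 2 with q
    exact (h3 q).2.symm.trans (congrArg p.r ((e _ q).trans (by rw [h4])).symm)
  · rintro _ ⟨_, hu, rfl⟩ hi
    obtain ⟨σ, hσ, rfl⟩ := Dat.mem_cfg.1 hu
    obtain ⟨τ, hτ⟩ := exists_pr_of h cp hκ hσ hi
    have h1 := (natDegree_C_mul_le (chr s κ) _).trans hσ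
    refine Dat.mem_cfg.2 ⟨τ, hτ.natDegree_le.trans h1, _root_.funext fun q => ?_⟩
    refine (hv_red hτ h1 (η.x q)).2.symm.trans ?_
    rw [← e]
    rfl

/-- **good reduction of the configuration** -/
theorem geqN_red (h : GR p η.f s g) (cp : Cp d g) (hN : η.NrmUp N) :
    Cfg.GeqN N (η.cfg.red p) (rdat η p cp).cfg :=
  (((Cfg.geq_gau _ fun q => gc_ne h (η.x q)).red_red0 (pr_cfg h cp)).geqN N).trans
    (Cfg.GeqN.of_eq (red0_y h cp) fun κ hκ => red0_V h cp (hN κ hκ))

theorem exists_lift (hs : Function.Surjective p.φ) (τ : E[X]) :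
    ∃ σ : L[X], σ.natDegree ≤ τ.natDegree ∧ PR p σ τ := by
  choose u hu using hs
  refine ⟨∑ l ∈ Finset.range (τ.natDegree + 1), monomial l (u (τ.coeff l)),
    natDegree_sum_le_of_forall_le _ _ fun l hl => (natDegree_monomial_le _).trans
      (Nat.lt_succ_iff.1 (Finset.mem_range.1 hl)), fun l => ?_⟩
  simp only [finsetSum_coeff, coeff_monomial, Finset.sum_ite_eq', Finset.mem_range]
  split_ifs with h1
  · exact ⟨(u _).2, (p.r_coe _).trans (hu _)⟩
  · rw [coeff_eq_zero_of_natDegree_lt (by omega), Pl.r_zero]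
    exact ⟨zero_mem _, rfl⟩

theorem rx_surj (hs : Function.Surjective p.φ) : Function.Surjective (rx p) := by
  rintro (_ | e)
  · exact ⟨none, rfl⟩
  · obtain ⟨x, rfl⟩ := hs e
    exact ⟨some x, by rw [rx, if_pos x.2, p.r_coe]⟩

/-- **the reduced datum is norming** -/
theorem nrm_red (hp : Lnr p) (h : GR p η.f s g) (cp : Cp d g) (hκ : η.Nrm κ) :
    (rdat η p cp).Nrm κ := by
  intro E' _ _ γ W τ hτ hq t
  obtain ⟨F, _, _, _, α, U, β, h1, h2, -⟩ :=
    Bub96.exists_ext ((LP.mk p hp).comp (LP.hom γ)).toPl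
  rw [LP.comp_hom_V] at h1 h2
  have h3 : ∀ x, α x ∈ (plV U).V.1 ↔ x ∈ p.V.1 := fun x =>
    (mem_cm (j := (α : L →+* F)) (h := alg_ov α) (W := U)).symm.trans (by rw [h1])
  have h0 : ∀ x ∈ p.V.1, (plV U).r (α x) = β (γ (p.r x)) := fun x hx => by
    have h4 := h2 x hx
    rw [r_comp _ _ hx, r_hom] at h4
    exact h4
  let β' : E' →ₐ[ℂ] Rf U :=
    { toRingHom := β
      commutes' := fun c => by
        have h5 := h0 _ (p.V.2 c)
        rw [α.commutes, lnr_plV, hp, γ.commutes] at h5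
        exact h5.symm }
  have h4 : ∀ x ∈ p.V.1, (plV U).r (α x) = β' (γ (p.r x)) := h0
  clear_value β'
  have h5 : ∀ x, rx (plV U) (Option.map α x) = ((rx p x).map γ).map β' := by
    rintro (_ | x)
    · rfl
    · by_cases hx : x ∈ p.V.1
      · rw [Option.map_some, rx, rx, if_pos hx, if_pos ((h3 x).2 hx), h4 x hx]
        rfl
      · rw [Option.map_some, rx, rx, if_neg hx, if_neg ((h3 x).not.2 hx)]
        rfl
  have h6 : GR (plV U) (η.map α).f (fun j => α (s j)) (((rdat η p cp).map γ).map β').f :=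
    ⟨fun j i l => by
      simpa [Dat.map] using (h3 _).2 (h.mem j i l), fun j i l => by
      simpa [Dat.map, rdat, h.red] using h4 _ (h.mem j i l), fun j => by
      obtain ⟨i, l, h6⟩ := h.one j
      exact ⟨i, l, by simp [Dat.map, rdat, h6]⟩⟩
  obtain ⟨Z, rfl⟩ := cm_surjective β' W
  obtain ⟨σ, h7, h8⟩ := exists_lift (surj_plV U) (τ.map (β' : E' →+* Rf U))
  have h9 := (natDegree_C_mul_le (chr (fun j => α (s j)) κ)⁻¹ σ).trans
    (h7.trans (natDegree_map_le.trans hτ))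
  have h10 := fun x => le_iff h6 (η.map α).cp (((rdat η p cp).map γ).map β').cp
    (by rwa [← mul_assoc, ← C_mul, mul_inv_cancel₀ (chr_ne (s_ne h6) κ), C_1, one_mul]) h9 x Z
  have key : ∀ t, Z.v (hv (dot κ d) (τ.map (β' : E' →+* Rf U)) (Option.map β' t)) ≤
      (lw κ (pt d (((rdat η p cp).map γ).map β').f (t.map β'))).val Z ↔
      (cm _ (alg_ov β') Z).v (hv (dot κ d) τ t) ≤
        (lw κ (((rdat η p cp).map γ).pt t)).val (cm _ (alg_ov β') Z) := fun t => by
    rw [show pt d _ (t.map β') = _ from Bub96.pt_map _ β' t, Bub96.lw_map,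
      show t.map β' = t.map (β' : E' →+* Rf U) from rfl, Bub96.hv_map]
    exact v_le_val_mp
  obtain ⟨x, hx⟩ := rx_surj (surj_plV U) (t.map β')
  rw [← key, ← hx, ← h10]
  refine hκ F α _ _ h9 (fun q => (h10 _).2 ?_) x
  rw [show (η.map α).x q = (η.x q).map α from rfl, h5]
  exact (key _).2 (hq q)

theorem nrmUp_red (hp : Lnr p) (h : GR p η.f s g) (cp : Cp d g) (hN : η.NrmUp N) :
    (rdat η p cp).NrmUp N := fun κ hκ => nrm_red hp h cp (hN κ hκ)

end Crest.Agent.X262.EndsZ
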